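import Vale.Agent.P110.Bounds

/-!
# Flatness from above at every length: the constant `√2` for all large lengths

For every `ε > 0` and every large `N` there is a real Littlewood polynomial of length `N` whose
maximum on the unit circle is at most `(√2 + ε) √N`.  The lengths `2 ^ a * 10 ^ b` carry Golay
complementary pairs (Golay's pair of length ten and Turyn's product), they are dense in ratio since
`5 ^ k` is never a power of two, and the short remainder is handled by the classical bound.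
-/

namespace Vale.Agent.Results.P110.AllLengthsRootTwo

open Finset Vale.Agent.P110

theorem result (ε : ℝ) (hε : 0 < ε) : ∃ N₀ : ℕ, ∀ N ≥ N₀, ∃ s : ℕ → ℤ,
    (∀ k, s k = 1 ∨ s k = -1) ∧
    ∀ z : ℂ, ‖z‖ = 1 → ‖∑ k ∈ range N, (s k : ℂ) * z ^ k‖ ≤ (Real.sqrt 2 + ε) * Real.sqrt N := by
  set C : ℝ := 2 + Real.sqrt 2 with hC
  have hCpos : 0 < C := by positivity
  set δ : ℝ := (ε / C) ^ 2 with hδ
  have hδpos : 0 < δ := by positivity
  obtain ⟨N₀, hN₀⟩ := exists_golay_near δ hδpos
  refine ⟨N₀, ?_⟩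
  intro N hN
  obtain ⟨a₀, b₀, hle, hclose⟩ := hN₀ N hN
  set G : ℕ := 2 ^ a₀ * 10 ^ b₀ with hG
  obtain ⟨T, hT⟩ : ∃ T, N = G + T := ⟨N - G, by omega⟩
  obtain ⟨a, b, ha, _, hab⟩ : Golay G := golay_pow a₀ b₀
  obtain ⟨t, ht, htb⟩ := shapiro T
  refine ⟨concat G a t, concat_sign ha ht, ?_⟩
  intro z hz
  have h0 := norm_val_concat_le G T a t z hz
  have h1 := norm_val_le_of_golay hab z hz
  have h2 := htb z hz
  rw [← hT] at h0
  have h3 : ‖val (concat G a t) N z‖ ≤ Real.sqrt (2 * G) + C * Real.sqrt T := by linarith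
  have hGN : (G : ℝ) ≤ N := by exact_mod_cast hle
  have hTval : (T : ℝ) ≤ δ * N := by
    have : (N : ℝ) = G + T := by exact_mod_cast hT
    linarith
  have h4 : Real.sqrt (2 * (G : ℝ)) ≤ Real.sqrt 2 * Real.sqrt N := by
    rw [Real.sqrt_mul (by norm_num)]
    exact mul_le_mul_of_nonneg_left (Real.sqrt_le_sqrt hGN) (Real.sqrt_nonneg 2)
  have h5 : C * Real.sqrt T ≤ ε * Real.sqrt N := by
    have h6 : Real.sqrt T ≤ Real.sqrt (δ * N) := Real.sqrt_le_sqrt hTval
    have h7 : Real.sqrt (δ * N) = ε / C * Real.sqrt N := by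
      rw [Real.sqrt_mul hδpos.le, hδ, Real.sqrt_sq (by positivity)]
    rw [h7] at h6
    calc C * Real.sqrt T ≤ C * (ε / C * Real.sqrt N) := mul_le_mul_of_nonneg_left h6 hCpos.le
      _ = ε * Real.sqrt N := by field_simp
  have h8 : ‖val (concat G a t) N z‖ ≤ (Real.sqrt 2 + ε) * Real.sqrt N := by
    rw [add_mul]
    linarith
  exact h8

end Vale.Agent.Results.P110.AllLengthsRootTwo
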