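import Vale.Agent.P110.Window

namespace Vale.Agent.Results.P110.ProgressionObstruction

open Vale.Agent.P110 Finset

/-- Let `P = ∑_{k<N} ε_k z^k` be a Littlewood polynomial with `|P(z)|² ≤ A` on the unit circle.
Then monochromatic progressions in the coefficient sequence are short and sums along progressions
are small.  With `A = (1 + c)² N` this says that a Littlewood polynomial having a monochromatic
progression of length more than `√(8/3) (1 + c) √N` has maximum modulus above `(1 + c) √N`. -/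
theorem result (N : ℕ) (ε : ℕ → ℤ) (hε : ∀ k < N, ε k = 1 ∨ ε k = -1) (A : ℝ)
    (hA : ∀ z : ℂ, ‖z‖ = 1 → ‖∑ k ∈ range N, (ε k : ℂ) * z ^ k‖ ^ 2 ≤ A) :
    (∀ a d L : ℕ, 1 ≤ d → 1 ≤ L → (∀ j < L, a + j * d < N ∧ ε (a + j * d) = ε a) →
      3 * (L : ℝ) ^ 2 + 4 ≤ 8 * A) ∧
    (∀ a d L m : ℕ, 1 ≤ d → (∀ j < L, a + j * d < N ∧ ε (a + j * d) = ε a) → 1 ≤ m → m ≤ L →
      3 * (m : ℝ) * ((L : ℝ) - m) + (m : ℝ) ^ 2 + 2 ≤ 3 * A) ∧
    (∀ a d m : ℕ, 1 ≤ d → (∀ j < m, a + j * d < N) →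
      |(∑ j ∈ range m, (ε (a + j * d) : ℝ))| * (|(∑ j ∈ range m, (ε (a + j * d) : ℝ))| ^ 2 + 2)
        ≤ 3 * (A * m)) :=
  ⟨fun a _ L hd hL hc => mono_length hε hA a L hd hL hc,
   fun a _ L _ hd hc hm hmL => mono_window hε hA a L hd hc hm hmL,
   fun a _ _ hd hc => prog_sum hε hA a hd hc⟩

end Vale.Agent.Results.P110.ProgressionObstruction
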